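import Vale.Agent.P217.LT.Heights
import Vale.Agent.P217.FG.Existence

/-!
# P217: the series `[p ^ N]` of the universal law: composition, Weierstrass factorization,
low coefficients modulo `(p, u 1, ..., u (i - 1))`
-/

noncomputable section

namespace Vale.Agent.P217

namespace TowerSeries

open PowerSeries

variable {R : Type} [CommRing R] (F : FormalGroup R)

theorem cc_nsmul (m : ℕ) : constantCoeff (nsmulSeries F m) = 0 :=
  FG.Haz.constantCoeff_nsmulSeries F m

theorem hasSubst_nsmul (m : ℕ) : HasSubst (nsmulSeries F m) :=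
  HasSubst.of_constantCoeff_zero' (cc_nsmul F m)

theorem nsmulSeries_one : nsmulSeries F 1 = X :=
  F.add_zero HasSubst.X'

theorem nsmulSeries_add (a b : ℕ) : nsmulSeries F (a + b) =
    F.toPowerSeries.subst ![nsmulSeries F a, nsmulSeries F b] := by
  induction a with
  | zero => rw [Nat.zero_add]; exact (F.zero_add (hasSubst_nsmul F b)).symm
  | succ a ih =>
    rw [show a + 1 + b = (a + b) + 1 by omega]
    change F.toPowerSeries.subst ![(X : PowerSeries R), nsmulSeries F (a + b)] = _
    rw [ih]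
    exact (F.assoc' HasSubst.X' (hasSubst_nsmul F a) (hasSubst_nsmul F b)).symm

theorem nsmulSeries_mul (a b : ℕ) :
    nsmulSeries F (a * b) = subst (nsmulSeries F b) (nsmulSeries F a) := by
  induction a with
  | zero =>
    rw [Nat.zero_mul, nsmulSeries, ← coe_substAlgHom (hasSubst_nsmul F b), map_zero]
  | succ a ih =>
    have h : MvPowerSeries.HasSubst ![(X : PowerSeries R), nsmulSeries F a] :=
      MvPowerSeries.hasSubst_of_constantCoeff_zero
        (Fin.forall_fin_two.2 ⟨constantCoeff_X, cc_nsmul F a⟩)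
    rw [show (a + 1) * b = b + a * b by ring, nsmulSeries_add, ih]
    change _ = subst _ (F.toPowerSeries.subst ![(X : PowerSeries R), nsmulSeries F a])
    conv_rhs => rw [subst, MvPowerSeries.subst_comp_subst_apply h (hasSubst_nsmul F b).const]
    congr 1
    funext i
    fin_cases i
    · exact (subst_X (hasSubst_nsmul F b)).symm
    · rfl

theorem nsmulSeries_pow_prime {p n : ℕ} [Fact p.Prime] (hn : nsmulSeries F p = X ^ p ^ n)
    (N : ℕ) : nsmulSeries F (p ^ N) = X ^ p ^ (n * N) := by
  induction N with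
  | zero => simpa using nsmulSeries_one F
  | succ N ih =>
    have hp : p ^ n ≠ 0 := pow_ne_zero _ (Fact.out : p.Prime).ne_zero
    rw [pow_succ, nsmulSeries_mul, ih, hn, subst_pow (HasSubst.X_pow hp), subst_X
      (HasSubst.X_pow hp), ← pow_mul, ← pow_add]
    congr 2
    ring

/-- The lowest coefficients of `F (a, b)`. -/
theorem coeff_subst_low {a b : PowerSeries R} {M m : ℕ} (hM : 1 ≤ M) (hm : m ≤ M)
    (ha : ∀ k < M, coeff k a = 0) (hb : ∀ k < M, coeff k b = 0) :
    coeff m (F.toPowerSeries.subst ![a, b] : PowerSeries R) = coeff m a + coeff m b := by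
  classical
  have hcc : ∀ i, MvPowerSeries.constantCoeff (![a, b] i) = 0 := Fin.forall_fin_two.2
    ⟨(coeff_zero_eq_constantCoeff_apply a).symm.trans (ha 0 hM),
      (coeff_zero_eq_constantCoeff_apply b).symm.trans (hb 0 hM)⟩
  have hab := MvPowerSeries.hasSubst_of_constantCoeff_zero hcc
  have hne : (Finsupp.single (0 : Fin 2) 1 : Fin 2 →₀ ℕ) ≠ Finsupp.single 1 1 := fun h => by
    simpa using congrArg (fun e : Fin 2 →₀ ℕ => e 0) h
  rw [coeff, MvPowerSeries.coeff_subst hab, finsum_eq_sum_of_support_subset _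
    (s := {Finsupp.single (0 : Fin 2) 1, Finsupp.single 1 1}) ?_, Finset.sum_pair hne]
  · simp [F.lin_coeff_X, F.lin_coeff_Y]
  · intro d hd
    rw [Function.mem_support] at hd
    by_contra hd'
    simp only [Finset.coe_insert, Finset.coe_singleton, Set.mem_insert_iff,
      Set.mem_singleton_iff, not_or] at hd'
    apply hd
    rcases Nat.eq_zero_or_pos (d 0 + d 1) with h0 | h0
    · rw [show d = 0 by ext i; fin_cases i <;> simp <;> omega,
        MvPowerSeries.coeff_zero_eq_constantCoeff_apply, F.zero_constantCoeff, zero_smul]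
    · have h2 : 2 ≤ d 0 + d 1 := by
        by_contra h2
        rcases Nat.eq_zero_or_pos (d 0) with h | h
        · exact hd'.2 (by ext i; fin_cases i <;> simp <;> omega)
        · exact hd'.1 (by ext i; fin_cases i <;> simp <;> omega)
      refine smul_eq_zero_of_right _ ?_
      have hdiv : (X : PowerSeries R) ^ (M * (d 0 + d 1)) ∣ a ^ d 0 * b ^ d 1 := by
        rw [Nat.mul_add, pow_add, pow_mul, pow_mul]
        exact mul_dvd_mul (pow_dvd_pow_of_dvd (X_pow_dvd_iff.2 ha) _)
          (pow_dvd_pow_of_dvd (X_pow_dvd_iff.2 hb) _)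
      have h := X_pow_dvd_iff.1 hdiv m (by nlinarith)
      rw [coeff] at h
      rw [Finsupp.prod_fintype _ _ (by simp)]
      simpa [Fin.prod_univ_two] using h

/-- The lowest coefficients of the tail when `v l = 0` for `1 ≤ l < i`. -/
theorem coeff_tail_low (p : ℕ) [Fact p.Prime] (v : ℕ → R) {i : ℕ} (hi : 1 ≤ i)
    (hv : ∀ l, 1 ≤ l → l < i → v l = 0) (j : ℕ) :
    ∀ m ≤ p ^ i, coeff m (FG.tail p F v j) = if m = p ^ i ∧ i ≤ j then v i else 0 := by
  have hp1 : 1 < p := (Fact.out : p.Prime).one_lt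
  induction j with
  | zero =>
    intro m _
    rw [if_neg (by omega)]
    simp [FG.tail]
  | succ j ih =>
    intro m hm
    have hcoef : ∀ k, coeff k (C (v (j + 1)) * X ^ p ^ (j + 1)) =
        if k = p ^ (j + 1) then v (j + 1) else 0 := fun k => by
      simp [coeff_C_mul, coeff_X_pow]
    have hlow : ∀ k < p ^ i, coeff k (C (v (j + 1)) * X ^ p ^ (j + 1)) = 0 := fun k hk => by
      rw [hcoef]
      split_ifs with h
      · exact hv _ (by omega) ((Nat.pow_lt_pow_iff_right hp1).1 (h ▸ hk))
      · rfl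
    change coeff m (F.toPowerSeries.subst ![C (v (j + 1)) * X ^ p ^ (j + 1),
      FG.tail p F v j] : PowerSeries R) = _
    rw [coeff_subst_low F (Nat.one_le_pow _ _ (by omega)) hm hlow
      (fun k hk => by rw [ih k hk.le, if_neg (by omega)]), ih m hm]
    rcases hm.lt_or_eq with hm' | rfl
    · rw [hlow m hm', if_neg (by omega), if_neg (by omega), add_zero]
    · rw [hcoef]
      by_cases hij : i = j + 1
      · subst hij; simp
      · rw [if_neg fun h => hij (Nat.pow_right_injective hp1 h)]
        by_cases h' : i ≤ j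
        · simp [h', show i ≤ j + 1 by omega]
        · simp [h', show ¬i ≤ j + 1 by omega]

end TowerSeries

namespace TowerSeries

variable {p n : ℕ} [Fact p.Prime] {F : FormalGroup (E0 p n)}

open IsLocalRing

theorem ker_residueMap : RingHom.ker (residueMap p n) = maximalIdeal (E0 p n) := by
  have hs : Function.Surjective (residueMap p n) := fun c =>
    ⟨MvPowerSeries.C (WittVector.teichmuller p c), by simp [residueMap, WittVector.teichmuller_coeff_zero]⟩
  exact IsLocalRing.eq_maximalIdeal (RingHom.ker_isMaximal_of_surjective _ hs)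

theorem residueMap_eq_zero_iff {a : E0 p n} :
    residueMap p n a = 0 ↔ a ∈ maximalIdeal (E0 p n) := by
  rw [← ker_residueMap]; rfl

theorem map_residue_pow (hF : IsHazewinkel p n F) (hn : 1 ≤ n) (N : ℕ) :
    PowerSeries.map (residueMap p n) (nsmulSeries F (p ^ N)) = PowerSeries.X ^ p ^ (n * N) := by
  rw [← FG.nsmulSeries_map]
  exact nsmulSeries_pow_prime _ (FG.specialFibre_nsmul p n hF hn) N

/-- Weierstrass preparation of `[p ^ N]`. -/
theorem exists_factor [IsAdicComplete (maximalIdeal (E0 p n)) (E0 p n)]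
    (hF : IsHazewinkel p n F) (hn : 1 ≤ n) (N : ℕ) :
    ∃ (g : Polynomial (E0 p n)) (U V : PowerSeries (E0 p n)), g.Monic ∧
      g.natDegree = p ^ (n * N) ∧ (∀ i < p ^ (n * N), g.coeff i ∈ maximalIdeal (E0 p n)) ∧
      (∀ i, PowerSeries.coeff i (U - 1) ∈ maximalIdeal (E0 p n)) ∧ U * V = 1 ∧
      nsmulSeries F (p ^ N) = (g : PowerSeries (E0 p n)) * U := by
  set f := nsmulSeries F (p ^ N)
  set D := p ^ (n * N)
  have hmap : f.map (residue (E0 p n)) = PowerSeries.X ^ D := by
    ext i
    have h := congrArg (PowerSeries.coeff i) (map_residue_pow hF hn N)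
    rw [PowerSeries.coeff_map, PowerSeries.coeff_X_pow] at h
    rw [PowerSeries.coeff_map, PowerSeries.coeff_X_pow, ← sub_eq_zero]
    have hm : PowerSeries.coeff i f - (if i = D then 1 else 0) ∈ maximalIdeal (E0 p n) := by
      rw [← residueMap_eq_zero_iff, map_sub, h]
      split_ifs <;> simp
    rw [← residue_eq_zero_iff, map_sub] at hm
    split_ifs at hm ⊢ <;> simpa using hm
  obtain ⟨g, U, H⟩ := PowerSeries.exists_isWeierstrassFactorization (g := f)
    (by rw [hmap]; exact pow_ne_zero _ PowerSeries.X_ne_zero)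
  have hdeg : g.natDegree = D := by
    rw [H.natDegree_eq_toNat_order_map, hmap, PowerSeries.order_X_pow]; rfl
  have hlow : ∀ i < D, g.coeff i ∈ maximalIdeal (E0 p n) := fun i hi =>
    H.isDistinguishedAt.mem (by omega)
  have hgmap : (g : PowerSeries (E0 p n)).map (residue (E0 p n)) = PowerSeries.X ^ D := by
    ext i
    rw [PowerSeries.coeff_map, Polynomial.coeff_coe, PowerSeries.coeff_X_pow]
    rcases lt_trichotomy i D with h | h | h
    · rw [if_neg h.ne, residue_eq_zero_iff]; exact hlow i h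
    · rw [if_pos h, h, ← hdeg, ← Polynomial.leadingCoeff, H.isDistinguishedAt.monic, map_one]
    · rw [if_neg h.ne', Polynomial.coeff_eq_zero_of_natDegree_lt (hdeg ▸ h), map_zero]
  have hU : U.map (residue (E0 p n)) = 1 := by
    refine mul_left_cancel₀ (pow_ne_zero D PowerSeries.X_ne_zero) ?_
    rw [mul_one]
    conv_rhs => rw [← hmap, H.eq_mul, map_mul, hgmap]
  refine ⟨g, U, (↑H.isUnit.unit⁻¹ : PowerSeries (E0 p n)), H.isDistinguishedAt.monic, hdeg, hlow,
    fun i => ?_, H.isUnit.mul_val_inv, H.eq_mul⟩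
  rw [← residue_eq_zero_iff, ← PowerSeries.coeff_map, map_sub, hU, map_one, sub_self, map_zero]

/-- The coefficient of the distinguished polynomial of `[p]` at `p ^ i` is `u i` up to a unit
modulo `(p, u 1, ..., u (i - 1))`. -/
theorem coeff_factor (hF : IsHazewinkel p n F) {g : Polynomial (E0 p n)}
    {U V : PowerSeries (E0 p n)} (hU : U * V = 1) (hg : nsmulSeries F p = g * U) {i : ℕ}
    (hi : 1 ≤ i) (hin : i ≤ n) :
    ∃ v : E0 p n, IsUnit v ∧ g.coeff (p ^ i) - v * u p n i ∈ heightIdeal p n i := by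
  classical
  set ψ := Ideal.Quotient.mk (heightIdeal p n i)
  have hI : heightIdeal p n i = Ideal.span (insert (p : E0 p n) (u p n '' Set.Ico 1 i)) := by
    rw [heightIdeal, if_neg (by omega)]
  have hψp : ψ (p : E0 p n) = 0 :=
    Ideal.Quotient.eq_zero_iff_mem.2 (hI ▸ Ideal.subset_span (Set.mem_insert _ _))
  have hψu : ∀ l, 1 ≤ l → l < i → ψ (u p n l) = 0 := fun l h1 h2 =>
    Ideal.Quotient.eq_zero_iff_mem.2 (hI ▸ Ideal.subset_span
      (Set.mem_insert_of_mem _ ⟨l, ⟨h1, h2⟩, rfl⟩))
  have htail : ∀ j, PowerSeries.map ψ (FG.tail p F (u p n) j) =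
      FG.tail p (F.map ψ) (fun l => ψ (u p n l)) j := by
    intro j
    induction j with
    | zero => simp [FG.tail]
    | succ j ih =>
      rw [FG.tail, FG.map_two ψ F ?_ (FG.Haz.constantCoeff_tail F (u p n) j), ih, map_mul,
        PowerSeries.map_C, map_pow, PowerSeries.map_X]
      · rfl
      · simp [zero_pow (pow_ne_zero (j + 1) (Fact.out : p.Prime).ne_zero)]
  have hf : ∀ m ≤ p ^ i, ψ (PowerSeries.coeff m (nsmulSeries F p)) =
      if m = p ^ i then ψ (u p n i) else 0 := fun m hm => by
    rw [← PowerSeries.coeff_map, FG.map_nsmul_p p n hF ψ hψp, htail,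
      coeff_tail_low _ p _ hi (fun l h1 h2 => hψu l h1 h2) n m hm]
    simp [hin]
  refine ⟨PowerSeries.constantCoeff V,
    (IsUnit.of_mul_eq_one U ((mul_comm V U).trans hU)).map _, ?_⟩
  have hgV : (g : PowerSeries (E0 p n)) = nsmulSeries F p * V := by
    rw [hg, mul_assoc, hU, mul_one]
  rw [← Ideal.Quotient.eq, ← Polynomial.coeff_coe, hgV, PowerSeries.coeff_mul, map_sum, map_mul]
  rw [Finset.sum_eq_single (p ^ i, 0)]
  · rw [map_mul, hf _ le_rfl, if_pos rfl, PowerSeries.coeff_zero_eq_constantCoeff_apply, mul_comm]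
  · rintro ⟨a, b⟩ hab hne
    have hsum : a + b = p ^ i := Finset.HasAntidiagonal.mem_antidiagonal.1 hab
    have ha : a ≠ p ^ i := fun h => hne (by simp [h]; omega)
    rw [map_mul, hf a (by omega), if_neg ha, zero_mul]
  · simp

end TowerSeries

end Vale.Agent.P217
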